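import Crest.Agent.R332.Mat
import Crest.Agent.R74.Brouwer

/-!
# Poincaré–Bohl for Hermitian matrices

Use `Crest.Agent.R74.brouwer` (bounded continuous self-maps of `κ → ℝ` have a fixed point).
Let `π(M) = (R / max R ‖M‖) • M` be the radial retraction onto the ball.  With
`κ = (Fin N × Fin N) ⊕ (Fin N × Fin N)` and the real-linear bijection `j : (κ → ℝ) ≃ Matrix`
(real and imaginary parts; or any `Module.finBasis`-coordinates of the finite-dimensional real
space of matrices) and `H(M) = (M + Mᴴ)/2`, apply `brouwer` to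
`w ↦ j⁻¹ (π (X + Γ X))`, `X = π (H (j w))`.  At a fixed point `M = j w` is Hermitian with
`‖M‖ ≤ R`, so `X = M` and `M = π (M + Γ M)`; either `‖M + Γ M‖ ≤ R` and `Γ M = 0`, or
`‖M‖ = R` and `Γ M = (‖M + Γ M‖/R - 1) • M`.
-/

set_option autoImplicit false

open MeasureTheory Matrix Filter Topology Set
open scoped ComplexOrder Matrix.Norms.L2Operator MatrixOrder
open Crest.MathPhysics.LiebThirring

namespace Crest.Agent.R332

/-- Brouwer's theorem for bounded self-maps of a finite-dimensional normed space -/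
theorem brouw_fd {E : Type} [NormedAddCommGroup E] [NormedSpace ℝ E] [FiniteDimensional ℝ E]
    {h : E → E} (hc : Continuous h) {C : ℝ} (hb : ∀ w, ‖h w‖ ≤ C) : ∃ w, h w = w := by
  let e : E ≃L[ℝ] (Fin (Module.finrank ℝ E) → ℝ) :=
    ContinuousLinearEquiv.ofFinrankEq (by simp)
  obtain ⟨w, hw⟩ := Crest.Agent.R74.brouwer (h := fun w => e (h (e.symm w)))
    (e.continuous.comp (hc.comp e.symm.continuous))
    (C := ‖(e : E →L[ℝ] (Fin (Module.finrank ℝ E) → ℝ))‖ * C) fun w =>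
      ((e : E →L[ℝ] (Fin (Module.finrank ℝ E) → ℝ)).le_opNorm _).trans
        (mul_le_mul_of_nonneg_left (hb _) (norm_nonneg _))
  exact ⟨e.symm w, by rw [ContinuousLinearEquiv.eq_symm_apply]; exact hw⟩

/-- Poincaré–Bohl on the ball of a subspace `{p}` onto which `H` retracts -/
theorem brouw_abs {E : Type} [NormedAddCommGroup E] [NormedSpace ℝ E] [FiniteDimensional ℝ E]
    (p : E → Prop) (hsmul : ∀ (c : ℝ) (x : E), p x → p (c • x))
    (hadd : ∀ x y, p x → p y → p (x + y)) (H : E → E) (Hc : Continuous H) (Hp : ∀ x, p (H x))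
    (Hid : ∀ x, p x → H x = x) {R : ℝ} (hR : 0 < R) (Γ : E → E)
    (hc : ContinuousOn Γ {M | p M ∧ ‖M‖ ≤ R}) (hH : ∀ M, p M → ‖M‖ ≤ R → p (Γ M)) :
    ∃ M, p M ∧ ‖M‖ ≤ R ∧ (Γ M = 0 ∨ ∃ l : ℝ, 0 < l ∧ ‖M‖ = R ∧ Γ M = l • M) := by
  let π : E → E := fun M => (R / max R ‖M‖) • M
  have hmax : ∀ M : E, 0 < max R ‖M‖ := fun M => lt_max_of_lt_left hR
  have hπc : Continuous π :=
    (continuous_const.div (continuous_const.max continuous_norm) fun M => (hmax M).ne').smul
      continuous_id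
  have hπn : ∀ M, ‖π M‖ ≤ R := fun M => by
    simp only [π]
    rw [norm_smul, Real.norm_of_nonneg (div_nonneg hR.le (hmax M).le), div_mul_eq_mul_div,
      div_le_iff₀ (hmax M)]
    exact mul_le_mul_of_nonneg_left (le_max_right _ _) hR.le
  have hπid : ∀ M, ‖M‖ ≤ R → π M = M := fun M hM => by
    simp only [π]
    rw [max_eq_left hM, div_self hR.ne', one_smul]
  have hX : ∀ M, π (H M) ∈ {M | p M ∧ ‖M‖ ≤ R} := fun M => ⟨hsmul _ _ (Hp M), hπn _⟩
  have hXc : Continuous fun M => π (H M) := hπc.comp Hc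
  obtain ⟨M, hM⟩ := brouw_fd (h := fun M => π (π (H M) + Γ (π (H M))))
    (hπc.comp (hXc.add (hc.comp_continuous hXc hX))) (C := R) fun M => hπn _
  have hMn : ‖M‖ ≤ R := hM ▸ hπn _
  have hMp : p M := hM ▸ hsmul _ _ (hadd _ _ (hX M).1 (hH _ (hX M).1 (hX M).2))
  have hXM : π (H M) = M := by rw [Hid M hMp, hπid M hMn]
  have hM' : π (M + Γ M) = M := by simpa only [hXM] using hM
  refine ⟨M, hMp, hMn, ?_⟩
  rcases le_or_gt ‖M + Γ M‖ R with h | h
  · left
    rw [hπid _ h] at hM'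
    simpa using hM'
  · right
    have h0 : 0 < ‖M + Γ M‖ := hR.trans h
    simp only [π] at hM'
    rw [max_eq_right h.le] at hM'
    refine ⟨‖M + Γ M‖ / R - 1, by rw [sub_pos, one_lt_div hR]; exact h, ?_, ?_⟩
    · have := congrArg norm hM'
      rw [norm_smul, Real.norm_of_nonneg (div_nonneg hR.le h0.le), div_mul_cancel₀ _ h0.ne'] at this
      exact this.symm
    · have h1 : (‖M + Γ M‖ / R) • M = M + Γ M := by
        conv_lhs => rw [← hM', smul_smul]
        rw [hM', div_mul_div_cancel₀ hR.ne', div_self h0.ne', one_smul]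
      rw [sub_smul, h1, one_smul, add_sub_cancel_left]

theorem brouwer_herm {N : ℕ} {R : ℝ} (hR : 0 < R)
    (Γ : Matrix (Fin N) (Fin N) ℂ → Matrix (Fin N) (Fin N) ℂ)
    (hc : ContinuousOn Γ {M | M.IsHermitian ∧ ‖M‖ ≤ R})
    (hH : ∀ M, M.IsHermitian → ‖M‖ ≤ R → (Γ M).IsHermitian) :
    ∃ M : Matrix (Fin N) (Fin N) ℂ, M.IsHermitian ∧ ‖M‖ ≤ R ∧
      (Γ M = 0 ∨ ∃ l : ℝ, 0 < l ∧ ‖M‖ = R ∧ Γ M = l • M) := by
  have hs : ∀ (c : ℝ) (x : Matrix (Fin N) (Fin N) ℂ), x.IsHermitian → (c • x).IsHermitian :=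
    fun c x hx => by
      unfold Matrix.IsHermitian
      rw [conjTranspose_smul, hx.eq, star_trivial]
  refine brouw_abs (fun M : Matrix (Fin N) (Fin N) ℂ => M.IsHermitian) hs
    (fun x y hx hy => hx.add hy) (fun M => (1 / 2 : ℝ) • (M + Mᴴ)) ?_
    (fun M => hs _ _ (isHermitian_add_transpose_self M)) (fun M hM => ?_) hR Γ hc hH
  · have h1 : Continuous fun M : Matrix (Fin N) (Fin N) ℂ => Mᴴ :=
      continuous_id.matrix_conjTranspose
    exact (continuous_id.add h1).const_smul (1 / 2 : ℝ)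
  · change (1 / 2 : ℝ) • (M + Mᴴ) = M
    rw [hM.eq, ← two_smul ℝ M, smul_smul]
    norm_num

end Crest.Agent.R332
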