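import Crest.Agent.R332.Shoot
import Crest.Agent.R332.TrMono

/-!
# From the shooting argument to a `Datum`

Take `M, F` from `P.shoot` with `r = α⁻¹`, `C = sqP M`, and diagonalise `R = u diag(κ) uᴴ`
(`spectral`, `κ` = eigenvalues of the positive definite `R M`).  Put `Y x = U x * C * u`,
`Y' x = U' x * C * u`, `F̃ x = uᴴ * F (max a (min b x)) * u` (i.e. `Set.projIcc`).  Then
`uᴴ S u = diag κ²`, `mpow (YᴴY) r = uᴴ V u` (`cfc_conj`).  Derivative of `x ↦ F (clamp x)`: inside
`(a,b)` from `HasDerivWithinAt.hasDerivAt`; outside `[a,b]` it is locally constant and the right-hand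
side `S - R² - mpow 0 r` vanishes (`U_supp`, `mpow_zero_left`, `R_mul_R`); at `a` and `b` glue the
two one-sided derivatives (both `0`) with `HasDerivWithinAt.union` (`Iic a ∪ Ici a = univ`).
Energy: `tr (W YYᴴ) = tr (C (UᴴWU) C)`, `hs2 Y' = re tr (C (U'ᴴU') C)`,
`tr (diag κ² YᴴY) = tr (S C (UᴴU) C) = tr (K₀² C (UᴴU) C)` (as `C * negP M = 0`); integrate entrywise
(`integral_finset_sum`, `P.orth`, `P.energy`, `P.int_W`; entries of `UᴴU`, `U'ᴴU'` are continuous with
compact support): both sides equal `re tr (C T C) + re tr (C K₀² C)`, `T = ∫ U'ᴴU'`.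
The eigenvalue inequality is `sum_rpow_le` (`R * R - K₀² = negP M ≥ 0`).
-/

set_option autoImplicit false

open MeasureTheory Matrix Filter Topology Set
open scoped ComplexOrder Matrix.Norms.L2Operator MatrixOrder
open Crest.MathPhysics.LiebThirring

namespace Crest.Agent.R332

/-- gluing a derivative along `Iic a ∪ Icc a b ∪ Ici b` -/
theorem glue_scalar {E : Type*} [NormedAddCommGroup E] [NormedSpace ℝ E] {F : ℝ → E} {H : ℝ → E}
    {a b : ℝ} (hab : a ≤ b) (hF : ∀ t ∈ Icc a b, HasDerivWithinAt F (H t) (Icc a b) t)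
    (ha : ∀ t, t ≤ a → H t = 0) (hb : ∀ t, b ≤ t → H t = 0) (x : ℝ) :
    HasDerivAt (fun t => F (max a (min b t))) (H x) x := by
  have out : ∀ s : Set ℝ, IsClosed s → x ∉ s →
      HasDerivWithinAt (fun t => F (max a (min b t))) (H x) s x := fun s hs hx =>
    HasFDerivWithinAt.of_notMem_closure (by rwa [hs.closure_eq])
  have h1 : HasDerivWithinAt (fun t => F (max a (min b t))) (H x) (Iic a) x := by
    by_cases hx : x ∈ Iic a
    · rw [ha x hx]
      refine (hasDerivWithinAt_const x (Iic a) (F a)).congr_of_mem (fun t ht => ?_) hx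
      rw [max_eq_left ((min_le_right _ _).trans ht)]
    · exact out _ isClosed_Iic hx
  have h2 : HasDerivWithinAt (fun t => F (max a (min b t))) (H x) (Icc a b) x := by
    by_cases hx : x ∈ Icc a b
    · refine (hF x hx).congr_of_mem (fun t ht => ?_) hx
      rw [min_eq_right ht.2, max_eq_right ht.1]
    · exact out _ isClosed_Icc hx
  have h3 : HasDerivWithinAt (fun t => F (max a (min b t))) (H x) (Ici b) x := by
    by_cases hx : x ∈ Ici b
    · rw [hb x hx]
      refine (hasDerivWithinAt_const x (Ici b) (F b)).congr_of_mem (fun t ht => ?_) hx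
      rw [min_eq_left ht, max_eq_right hab]
    · exact out _ isClosed_Ici hx
  have h := (h1.union h2).union h3
  have e : Iic a ∪ Icc a b ∪ Ici b = univ := by
    ext t
    simp only [mem_union, mem_Iic, mem_Icc, mem_Ici, mem_univ, iff_true]
    rcases le_total t a with h | h
    · exact Or.inl (Or.inl h)
    rcases le_total t b with h' | h'
    · exact Or.inl (Or.inr ⟨h, h'⟩)
    · exact Or.inr h'
  rwa [e, hasDerivWithinAt_univ] at h

theorem glue_matrix {N : ℕ} {F H : ℝ → Matrix (Fin N) (Fin N) ℂ}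
    {a b : ℝ} (hab : a ≤ b) (hF : ∀ t ∈ Icc a b, HasDerivWithinAt F (H t) (Icc a b) t)
    (ha : ∀ t, t ≤ a → H t = 0) (hb : ∀ t, b ≤ t → H t = 0) (x : ℝ) :
    HasDerivAt (fun t => F (max a (min b t))) (H x) x := by
  rw [hasDerivAt_iff_entry]
  intro i j
  exact glue_scalar (F := fun t => F t i j) (H := fun t => H t i j) hab
    (fun t ht => hasDerivWithinAt_iff_entry.1 (hF t ht) i j)
    (fun t ht => by rw [ha t ht]; rfl) (fun t ht => by rw [hb t ht]; rfl) x

theorem glue_const {ι κ : Type*} [Fintype ι] [Fintype κ] (A : Matrix ι κ ℂ) (x : ℝ) :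
    HasDerivAt (fun _ : ℝ => A) 0 x :=
  hasDerivAt_iff_entry.2 fun i j => hasDerivAt_const x (A i j)

theorem glue_int {N : ℕ} {A : ℝ → Matrix (Fin N) (Fin N) ℂ} {B : Matrix (Fin N) (Fin N) ℂ}
    (hA : ∀ i j, Integrable fun x => A x i j) (hI : ∀ i j, ∫ x, A x i j = B i j)
    (Q : Matrix (Fin N) (Fin N) ℂ) :
    Integrable (fun x => (trace (A x * Q)).re) ∧
      ∫ x, (trace (A x * Q)).re = (trace (B * Q)).re := by
  have e : ∀ X : Matrix (Fin N) (Fin N) ℂ, trace (X * Q) = ∑ i, ∑ j, X i j * Q j i := fun X => by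
    simp only [trace, diag_apply, Matrix.mul_apply]
  have h1 : ∀ i, Integrable fun x => ∑ j, A x i j * Q j i := fun i =>
    integrable_finsetSum _ fun j _ => (hA i j).mul_const _
  have h2 : Integrable fun x => trace (A x * Q) := by
    simp only [e]
    exact integrable_finsetSum _ fun i _ => h1 i
  refine ⟨h2.re, ?_⟩
  have h3 := integral_re h2
  simp only [RCLike.re_to_complex] at h3
  rw [h3]
  congr 1
  simp only [e]
  rw [integral_finsetSum _ fun i _ => h1 i]
  refine Finset.sum_congr rfl fun i _ => ?_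
  rw [integral_finsetSum _ fun j _ => (hA i j).mul_const _]
  refine Finset.sum_congr rfl fun j _ => ?_
  rw [integral_mul_const, hI]

theorem glue_integrable {m N : ℕ} {U : ℝ → Matrix (Fin m) (Fin N) ℂ} (hU : Continuous U)
    {a b : ℝ} (h : ∀ x, x ∉ Ioo a b → U x = 0) (i j : Fin N) :
    Integrable fun x => ((U x)ᴴ * U x) i j := by
  have hc : Continuous fun x => ((U x)ᴴ * U x) i j :=
    (hU.matrix_conjTranspose.matrix_mul hU).matrix_elem i j
  refine hc.integrable_of_hasCompactSupport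
    (HasCompactSupport.intro (isCompact_Icc (a := a) (b := b)) fun x hx => ?_)
  rw [h x fun h' => hx (Ioo_subset_Icc_self h')]
  simp

theorem glue_sqP_negP {N : ℕ} (M : Matrix (Fin N) (Fin N) ℂ) : sqP M * negP M = 0 := by
  rw [sqP, negP, cfc_mul_cfc]
  have : (fun t : ℝ => Real.sqrt t * max (-t) 0) = fun _ => 0 := by
    funext t
    rcases le_total t 0 with h | h
    · rw [Real.sqrt_eq_zero_of_nonpos h, zero_mul]
    · rw [max_eq_right (by linarith), mul_zero]
  rw [this]
  exact cfc_zero ℝ M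

theorem glue_energy {m : ℕ} {W : ℝ → Matrix (Fin m) (Fin m) ℂ} (P : Pre m W)
    {C u K : Matrix (Fin P.N) (Fin P.N) ℂ} {M : Matrix (Fin P.N) (Fin P.N) ℂ} (hC : C = sqP M)
    (hu : u * uᴴ = 1) (hK : K = uᴴ * P.S M * u) :
    ∫ x, (trace (W x * (P.U x * (C * u) * (P.U x * (C * u))ᴴ))).re =
      ∫ x, (hs2 (P.U' x * (C * u)) +
        (trace (K * ((P.U x * (C * u))ᴴ * (P.U x * (C * u))))).re) := by
  have hCH : Cᴴ = C := by rw [hC]; exact (cfc_isHermitian _ _).eq
  have hu' : ∀ {n : ℕ} (X : Matrix (Fin P.N) (Fin n) ℂ), u * (uᴴ * X) = X := fun X => by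
    rw [← Matrix.mul_assoc, hu, Matrix.one_mul]
  have e1 : ∀ x, trace (W x * (P.U x * (C * u) * (P.U x * (C * u))ᴴ)) =
      trace (((P.U x)ᴴ * W x * P.U x) * (C * C)) := fun x => by
    simp only [conjTranspose_mul, hCH, Matrix.mul_assoc, hu']
    rw [trace_mul_comm (P.U x)ᴴ]
    simp only [Matrix.mul_assoc]
  have e2 : ∀ x, hs2 (P.U' x * (C * u)) = (trace (((P.U' x)ᴴ * P.U' x) * (C * C))).re := fun x => by
    rw [hs2_eq_trace']
    simp only [conjTranspose_mul, hCH, Matrix.mul_assoc, hu']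
    rw [trace_mul_comm (P.U' x)ᴴ]
    simp only [Matrix.mul_assoc]
  have e3 : ∀ x, trace (K * ((P.U x * (C * u))ᴴ * (P.U x * (C * u)))) =
      trace (((P.U x)ᴴ * P.U x) * (C * P.S M * C)) := fun x => by
    rw [hK]
    simp only [conjTranspose_mul, hCH, Matrix.mul_assoc, hu']
    rw [trace_mul_comm uᴴ]
    simp only [Matrix.mul_assoc, hu, Matrix.mul_one]
    rw [← Matrix.mul_assoc (P.S M), trace_mul_comm]
    simp only [Matrix.mul_assoc]
  have hU := glue_integrable P.continuous_U P.U_supp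
  have hU' := glue_integrable P.U'_cont P.U'_supp
  obtain ⟨i1, -⟩ := glue_int (B := Matrix.of fun i j => ∫ x, ((P.U x)ᴴ * W x * P.U x) i j)
    P.int_W (fun _ _ => rfl) (C * C)
  obtain ⟨i2, j2⟩ := glue_int (A := fun x => (P.U' x)ᴴ * P.U' x - (P.U x)ᴴ * W x * P.U x)
    (fun i j => (hU' i j).sub (P.int_W i j)) P.energy (C * C)
  obtain ⟨i3, j3⟩ := glue_int hU P.orth (C * P.S M * C)
  have e4 : (trace (-(dg P.k * dg P.k) * (C * C))).re + (trace (1 * (C * P.S M * C))).re = 0 := by
    have : C * P.S M * C = C * (dg P.k * dg P.k) * C := by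
      rw [Pre.S, Pre.K2, Matrix.mul_add, hC, glue_sqP_negP, add_zero]
    rw [this, Matrix.one_mul, Matrix.neg_mul, trace_neg, Matrix.mul_assoc C, trace_mul_comm C,
      Matrix.mul_assoc _ C C, Complex.neg_re, neg_add_cancel]
  simp only [e1, e2, e3]
  have e5 : ∀ x, (trace ((P.U' x)ᴴ * P.U' x * (C * C))).re +
      (trace ((P.U x)ᴴ * P.U x * (C * P.S M * C))).re =
      (trace (((P.U x)ᴴ * W x * P.U x) * (C * C))).re +
      ((trace (((P.U' x)ᴴ * P.U' x - (P.U x)ᴴ * W x * P.U x) * (C * C))).re +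
      (trace ((P.U x)ᴴ * P.U x * (C * P.S M * C))).re) := fun x => by
    rw [Matrix.sub_mul, trace_sub, Complex.sub_re]
    ring
  simp only [e5]
  have i4 := integral_add i1 (i2.add i3)
  simp only [Pi.add_apply] at i4
  rw [i4, integral_add i2 i3, j2, j3, e4, add_zero]

theorem Pre.exists_datum {m : ℕ} {W : ℝ → Matrix (Fin m) (Fin m) ℂ} (P : Pre m W) {α : ℝ}
    (hα : 0 < α) {γ : ℝ} (hγ : 0 < γ) :
    ∃ D : Datum m α W, ∑ i, P.k i ^ (2 * γ) ≤ ∑ i, D.κ i ^ (2 * γ) := by
  have hr : 0 < α⁻¹ := inv_pos.2 hα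
  obtain ⟨M, F, -, hFa, hFb, hF, hpos⟩ := P.shoot hr
  have hR := P.R_posDef M
  obtain ⟨u, hu1, hu2, hRu, -⟩ := spectral hR.1
  have hκ : dg hR.1.eigenvalues = uᴴ * P.R M * u := by
    conv_rhs => rw [hRu]
    simp only [Matrix.mul_assoc, hu1, Matrix.mul_one]
    rw [← Matrix.mul_assoc, hu1, Matrix.one_mul]
  have hconj : ∀ X Y : Matrix (Fin P.N) (Fin P.N) ℂ,
      uᴴ * X * u * (uᴴ * Y * u) = uᴴ * (X * Y) * u := fun X Y => by
    simp only [Matrix.mul_assoc]
    rw [← Matrix.mul_assoc u, hu2, Matrix.one_mul]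
  have hK : dg hR.1.eigenvalues * dg hR.1.eigenvalues = uᴴ * P.S M * u := by
    rw [hκ, hconj, P.R_mul_R]
  have hmem : ∀ x, max P.a (min P.b x) ∈ Icc P.a P.b := fun x =>
    ⟨le_max_left _ _, max_le P.hab.le (min_le_left _ _)⟩
  have hleft : ∀ x, x ≤ P.a → F (max P.a (min P.b x)) = P.R M := fun x hx => by
    rw [max_eq_left ((min_le_right _ _).trans hx), hFa]
  have hright : ∀ x, P.b ≤ x → F (max P.a (min P.b x)) = -P.R M := fun x hx => by
    rw [min_eq_left hx, max_eq_right P.hab.le, hFb]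
  have hV0 : ∀ x, x ∉ Ioo P.a P.b → P.V α⁻¹ M x = 0 := fun x hx => by
    rw [Pre.V, P.U_supp x hx, Matrix.zero_mul, Matrix.mul_zero, mpow_zero_left hr.ne']
  have hG : ∀ x, HasDerivAt (fun t => F (max P.a (min P.b t)))
      (P.S M - F (max P.a (min P.b x)) * F (max P.a (min P.b x)) - P.V α⁻¹ M x) x := by
    refine glue_matrix (H := fun x =>
      P.S M - F (max P.a (min P.b x)) * F (max P.a (min P.b x)) - P.V α⁻¹ M x) P.hab.le
      (fun t ht => ?_) (fun t ht => ?_) (fun t ht => ?_)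
    · rw [min_eq_right ht.2, max_eq_right ht.1]
      exact hF t ht
    · rw [hleft t ht, P.R_mul_R, hV0 t fun h => absurd h.1 (not_lt.2 ht), sub_self, sub_zero]
    · rw [hright t ht, neg_mul_neg, P.R_mul_R, hV0 t fun h => absurd h.2 (not_lt.2 ht), sub_self,
        sub_zero]
  refine ⟨
    { N := P.N
      κ := hR.1.eigenvalues
      Y := fun x => P.U x * (sqP M * u)
      Y' := fun x => P.U' x * (sqP M * u)
      F := fun x => uᴴ * F (max P.a (min P.b x)) * u
      a := P.a
      b := P.b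
      hab := P.hab.le
      κ_pos := hR.eigenvalues_pos
      Y_deriv := fun x => ?_
      Y'_cont := P.U'_cont.matrix_mul continuous_const
      Y_supp := fun x hx => by rw [P.U_supp x hx, Matrix.zero_mul]
      Y'_supp := fun x hx => by rw [P.U'_supp x hx, Matrix.zero_mul]
      F_deriv := fun x => ?_
      F_left := fun x hx => by rw [hleft x hx, hκ]
      F_right := fun x hx => by rw [hright x hx, hκ, Matrix.mul_neg, Matrix.neg_mul]
      F_le := fun x => ?_
      F_ge := fun x => ?_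
      energy := glue_energy P rfl hu2 hK }, ?_⟩
  · have := HasDerivAt.mmul (P.U_deriv x) (glue_const (sqP M * u) x)
    rwa [Matrix.mul_zero, add_zero] at this
  · have := HasDerivAt.mmul (HasDerivAt.mmul (glue_const uᴴ x) (hG x)) (glue_const u x)
    rw [Matrix.mul_zero, add_zero, Matrix.zero_mul, zero_add] at this
    convert this using 1
    have e : (P.U x * (sqP M * u))ᴴ * (P.U x * (sqP M * u)) =
        uᴴ * ((P.U x * sqP M)ᴴ * (P.U x * sqP M)) * u := by
      simp only [conjTranspose_mul, Matrix.mul_assoc]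
    rw [hK, hconj, e, mpow, cfc_conj _ (isHermitian_conjTranspose_mul_self _) hu2, Matrix.mul_sub,
      Matrix.mul_sub, Matrix.sub_mul, Matrix.sub_mul]
    rfl
  · have := (hpos _ (hmem x)).1.conjTranspose_mul_mul_same u
    rwa [Matrix.mul_sub, Matrix.sub_mul, ← hκ] at this
  · have := (hpos _ (hmem x)).2.conjTranspose_mul_mul_same u
    rwa [Matrix.mul_add, Matrix.add_mul, ← hκ] at this
  · refine sum_rpow_le P.k_pos hR.posSemidef ?_ hγ
    rw [P.R_mul_R, Pre.S, Pre.K2, add_sub_cancel_left]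
    exact cfc_posSemidef (fun t => le_max_right _ _) M

end Crest.Agent.R332
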