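import Crest.Agent.R332.Reduce
import Crest.Agent.R332.Glue
import Crest.Agent.R332.EqSeq
import Crest.Agent.R332.EqTop
import Crest.Agent.R332.EqSol
import Crest.Agent.R332.EqRest
import Crest.Agent.R332.EqBasis
import Crest.Agent.R332.Trial

/-!
# The sharp inequality and its equality cases
-/

set_option autoImplicit false

open MeasureTheory Matrix Filter Topology Set
open scoped ComplexOrder Matrix.Norms.L2Operator MatrixOrder
open Crest.MathPhysics.LiebThirring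

namespace Crest.Agent.R332

variable {m : ℕ} {W : ℝ → Matrix (Fin m) (Fin m) ℂ}

theorem exists_datum {α : ℝ} (hα : 0 < α) (hW : ∀ i j, Measurable fun x => W x i j)
    (hWp : ∀ x, (W x).PosSemidef) (hWi : Integrable fun x => trp (W x) (1 + α)) {n : ℕ}
    {φ : Fin n → ℝ → Vec m} (hφ : IsTrialFamily φ) :
    ∃ D : Datum m α W,
      negMoment (energyMatrix W φ) (α + 1 / 2) ≤ ∑ i, D.κ i ^ (2 * α + 1) := by
  have hγ : 0 < α + 1 / 2 := by linarith
  obtain ⟨P, hP⟩ := exists_pre hW hWp (p := 1 + α) (by linarith) hWi hφ hγ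
  obtain ⟨D, hD⟩ := P.exists_datum hα hγ
  refine ⟨D, ?_⟩
  have e : 2 * (α + 1 / 2) = 2 * α + 1 := by ring
  rw [hP]
  rw [e] at hD ⊢
  exact hD

theorem Datum.trpV_le {α : ℝ} (D : Datum m α W) (hα : 0 < α)
    (hW : ∀ i j, Measurable fun x => W x i j) (hWp : ∀ x, (W x).PosSemidef)
    (hWi : Integrable fun x => trp (W x) (1 + α)) :
    ∫ x, trp (D.V x) (1 + α) ≤ ∫ x, trp (W x) (1 + α) := by
  rw [D.chain hα hW hWp hWi]
  have h1 : 0 ≤ ∫ x, D.d1 x := integral_nonneg fun x => D.d1_nonneg hα hWp x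
  have h2 : 0 ≤ ∫ x, D.d2 x := integral_nonneg fun x => hs2_nonneg _
  have h3 : 0 ≤ (1 + α) * ∫ x, D.d2 x := mul_nonneg (by linarith) h2
  linarith

theorem main_ineq {α : ℝ} (hα : 0 < α) (hα1 : α < 1) (hW : ∀ i j, Measurable fun x => W x i j)
    (hWp : ∀ x, (W x).PosSemidef) (hWi : Integrable fun x => trp (W x) (1 + α)) {n : ℕ}
    {φ : Fin n → ℝ → Vec m} (hφ : IsTrialFamily φ) :
    negMoment (energyMatrix W φ) (α + 1 / 2) ≤
      sharpConst (α + 1 / 2) * ∫ x, trp (W x) (1 + α) := by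
  obtain ⟨D, hD⟩ := exists_datum hα hW hWp hWi hφ
  have h1 := D.action_plain hα hα1
  have h2 := D.trpV_le hα hW hWp hWi
  have hI := Ia_pos hα
  have hc := ca_pos hα
  rw [sharpConst_eq hα, div_mul_eq_mul_div, le_div_iff₀ hI]
  calc negMoment (energyMatrix W φ) (α + 1 / 2) * Ia α
      ≤ (∑ i, D.κ i ^ (2 * α + 1)) * Ia α := mul_le_mul_of_nonneg_right hD hI.le
    _ ≤ ca α * ∫ x, trp (D.V x) (1 + α) := h1
    _ ≤ ca α * ∫ x, trp (W x) (1 + α) := mul_le_mul_of_nonneg_left h2 hc.le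

theorem main_eq {α : ℝ} (hα : 0 < α) (hα1 : α < 1) (hW : ∀ i j, Measurable fun x => W x i j)
    (hWp : ∀ x, (W x).PosSemidef) (hWi : Integrable fun x => trp (W x) (1 + α))
    (h : ∀ ε : ℝ, 0 < ε → ∃ (n : ℕ) (φ : Fin n → ℝ → Vec m), IsTrialFamily φ ∧
      sharpConst (α + 1 / 2) * (∫ x, trp (W x) (1 + α)) - ε <
        negMoment (energyMatrix W φ) (α + 1 / 2)) :
    ∃ (U : Matrix.unitaryGroup (Fin m) ℂ) (a c : Fin m → ℝ), (∀ i, 0 ≤ a i) ∧
      ∀ᵐ x : ℝ, W x = (U : Matrix (Fin m) (Fin m) ℂ) *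
        Matrix.diagonal (fun i => ((soliton α⁻¹ (a i) (c i) x : ℝ) : ℂ)) *
          star (U : Matrix (Fin m) (Fin m) ℂ) := by
  have hI := Ia_pos hα
  obtain ⟨D, C, hD⟩ := exists_near hα hα1 hW hWp hWi (fun ε hε => by
    obtain ⟨n, φ, hφ, hlt⟩ := h (ε / Ia α) (div_pos hε hI)
    obtain ⟨D, hD⟩ := exists_datum hα hW hWp hWi hφ
    refine ⟨D, ?_⟩
    have h1 := mul_lt_mul_of_pos_right (hlt.trans_le hD) hI
    rw [sharpConst_eq hα] at h1
    have e : (ca α / Ia α * (∫ x, trp (W x) (1 + α)) - ε / Ia α) * Ia α =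
        ca α * (∫ x, trp (W x) (1 + α)) - ε := by
      field_simp
    rwa [e] at h1)
  refine exists_unitary_of_sol (fun x => (hWp x).1) fun q hq => ?_
  have key : ∀ k : ℕ, ∀ᵐ x, (star q ⬝ᵥ (W x *ᵥ q)).re ≤
      4 * ((1 + α⁻¹) * (1 / ((k : ℝ) + 1)) ^ 2) * (star q ⬝ᵥ q).re := by
    intro k
    have hk : (0 : ℝ) < 1 / ((k : ℝ) + 1) := by positivity
    obtain ⟨φ, hφ, ⟨T⟩⟩ := exists_top hα hD hk
    obtain ⟨hsol, H, hH⟩ := top_limit hα (hD.comp hφ) T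
    exact rest_bound hα hk (hD.comp hφ) T hH fun l => hq _ (hsol l)
  filter_upwards [ae_all_iff.2 key] with x hx
  have hlim : Tendsto (fun k : ℕ =>
      4 * ((1 + α⁻¹) * (1 / ((k : ℝ) + 1)) ^ 2) * (star q ⬝ᵥ q).re) atTop
      (𝓝 (4 * ((1 + α⁻¹) * (0 : ℝ) ^ 2) * (star q ⬝ᵥ q).re)) :=
    ((((tendsto_one_div_add_atTop_nhds_zero_nat (𝕜 := ℝ)).pow 2).const_mul _).const_mul _).mul_const _
  have hle : (star q ⬝ᵥ (W x *ᵥ q)).re ≤ 0 := by
    have := ge_of_tendsto' hlim hx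
    simpa using this
  have hnn : 0 ≤ star q ⬝ᵥ (W x *ᵥ q) := (hWp x).dotProduct_mulVec_nonneg q
  rw [← (hWp x).dotProduct_mulVec_zero_iff]
  obtain ⟨h1, h2⟩ := Complex.le_def.1 hnn
  apply Complex.ext
  · simp only [Complex.zero_re] at h1 ⊢
    linarith
  · simp only [Complex.zero_im] at h2 ⊢
    exact h2.symm

end Crest.Agent.R332
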