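import Crest.Agent.R332.TrajEx
import Crest.Agent.R332.TrajNeg
import Crest.Agent.R332.PosBound
import Crest.Agent.R332.Brouw

/-!
# The shooting argument (A)

Take `μ₀ ≥ 0` from `negP_bound`, `R₁` from `posP_bound`, `c₁ = √(‖K₀²‖ + μ₀)`, and
`R₀ > max (R₁ + μ₀) (2 (2 c₁ + δ) μ₀ / δ)`, `R₀ > 0`.  Apply `brouwer_herm` to
`Γ M = F M b + R M`.  If `Γ M = l • M`, `l > 0`, `‖M‖ = R₀`: `‖M₋‖ ≤ μ₀`, so `c0 ≤ c₁` and
`l R₀ = ‖Γ M‖ ≤ 2 c₁ + δ`, hence `l μ₀ ≤ δ/2` and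
`(c0 + δ/2) + F b = (c0 - R) + (δ/2 - l M₋) + l M₊ ≥ 0` (`M = posP M - negP M`).  So `IsTraj.free`
and `posP_bound` give `‖M₊‖ ≤ tr M₊ ≤ R₁`, `R₀ = ‖M‖ ≤ R₁ + μ₀`: contradiction.  If `Γ M = 0`:
`ge_R`, `le_R`, and `free` applies since `(c0 + δ/2) - R ≥ 0`.
-/

set_option autoImplicit false

open MeasureTheory Matrix Filter Topology Set
open scoped ComplexOrder Matrix.Norms.L2Operator MatrixOrder
open Crest.MathPhysics.LiebThirring

namespace Crest.Agent.R332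

theorem shoot_posP_sub_negP {ι : Type*} [Fintype ι] [DecidableEq ι] {M : Matrix ι ι ℂ}
    (hM : M.IsHermitian) : posP M - negP M = M := by
  have hM' : IsSelfAdjoint M := hM
  unfold posP negP
  rw [← cfc_sub (fun t : ℝ => max t 0) (fun t : ℝ => max (-t) 0) M
    (Continuous.continuousOn (by fun_prop)) (Continuous.continuousOn (by fun_prop))]
  have : (fun t : ℝ => max t 0 - max (-t) 0) = fun t => t := by
    funext t
    exact max_zero_sub_max_neg_zero_eq_self t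
  rw [this]
  exact cfc_id' ℝ M hM'

theorem shoot_smul_psd {ι : Type*} [Fintype ι] [DecidableEq ι] {A : Matrix ι ι ℂ}
    (hA : A.PosSemidef) {c : ℝ} (hc : 0 ≤ c) : (c • A).PosSemidef :=
  hA.smul hc

theorem Pre.shoot {m : ℕ} {W : ℝ → Matrix (Fin m) (Fin m) ℂ} (P : Pre m W) {r : ℝ}
    (hr : 0 < r) :
    ∃ (M : Matrix (Fin P.N) (Fin P.N) ℂ) (F : ℝ → Matrix (Fin P.N) (Fin P.N) ℂ),
      M.IsHermitian ∧ F P.a = P.R M ∧ F P.b = -P.R M ∧
      (∀ t ∈ Icc P.a P.b, HasDerivWithinAt F (P.S M - F t * F t - P.V r M t) (Icc P.a P.b) t) ∧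
      (∀ t ∈ Icc P.a P.b, (P.R M - F t).PosSemidef ∧ (P.R M + F t).PosSemidef) := by
  obtain ⟨μ', hμ'⟩ := P.negP_bound hr
  obtain ⟨R₁, hR₁⟩ := P.posP_bound hr
  have hδ := P.δ_pos
  have hab := P.hab
  have hb : P.b ∈ Icc P.a P.b := ⟨hab.le, le_rfl⟩
  set μ : ℝ := max μ' 0 with hμ
  have hμ0 : 0 ≤ μ := le_max_right _ _
  set c₁ : ℝ := Real.sqrt (‖P.K2‖ + μ) with hc₁
  have hc₁0 : 0 ≤ c₁ := Real.sqrt_nonneg _
  set T : ℝ := 2 * (2 * c₁ + P.δ) * μ / P.δ with hT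
  have hT0 : 0 ≤ T := by positivity
  set R₀ : ℝ := max (R₁ + μ) T + 1 with hR₀
  have hR₀T : T < R₀ := lt_of_le_of_lt (le_max_right _ _) (lt_add_one _)
  have hR₀1 : R₁ + μ < R₀ := lt_of_le_of_lt (le_max_left _ _) (lt_add_one _)
  have hR₀0 : 0 < R₀ := lt_of_le_of_lt hT0 hR₀T
  obtain ⟨F, hF, hFc⟩ := P.traj_exists hr R₀
  obtain ⟨M, hM, hMn, hcase⟩ := brouwer_herm hR₀0 (fun M => F M P.b + P.R M) hFc
    (fun M hM hn => ((hF M hM hn).herm _ hb).add (P.R_posDef M).1)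
  have hT := hF M hM hMn
  have hRH : (P.R M).IsHermitian := (P.R_posDef M).1
  have hcR : ((P.c0 M : ℝ) • (1 : Matrix (Fin P.N) (Fin P.N) ℂ) - P.R M).PosSemidef :=
    posSemidef_sub_of_norm_le hRH (P.norm_R_le M)
  rcases hcase with h0 | ⟨l, hl, hMR, hΓ⟩
  · have h0' : F M P.b = -P.R M := eq_neg_of_add_eq_zero_left h0
    refine ⟨M, F M, hM, hT.1, h0', hT.free ?_, fun t ht => ⟨hT.le_R t ht, hT.ge_R ?_ t ht⟩⟩
    · have e : (P.c0 M + P.δ / 2 : ℝ) • (1 : Matrix (Fin P.N) (Fin P.N) ℂ) + F M P.b =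
          ((P.c0 M : ℝ) • (1 : Matrix (Fin P.N) (Fin P.N) ℂ) - P.R M) +
            (P.δ / 2 : ℝ) • (1 : Matrix (Fin P.N) (Fin P.N) ℂ) := by
        rw [h0', add_smul]; abel
      rw [e]
      exact hcR.add (shoot_smul_psd PosSemidef.one (by positivity))
    · rw [h0', add_neg_cancel]
      exact PosSemidef.zero
  · exfalso
    have hneg : ‖negP M‖ ≤ μ := (hμ' M (F M) l hM hT hl hΓ).trans (le_max_left _ _)
    have hc0 : P.c0 M ≤ c₁ := Real.sqrt_le_sqrt (by linarith)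
    have hlR : l * R₀ ≤ 2 * c₁ + P.δ := by
      have h1 : ‖F M P.b + P.R M‖ = l * R₀ := by
        have : F M P.b + P.R M = l • M := hΓ
        rw [this, norm_smul, Real.norm_of_nonneg hl.le, hMR]
      have h2 := norm_add_le (F M P.b) (P.R M)
      have h3 := hT.norm_le _ hb
      have h4 := P.norm_R_le M
      linarith
    have hlμ : l * μ ≤ P.δ / 2 := by
      have h1 : T * P.δ = 2 * (2 * c₁ + P.δ) * μ := by
        simp only [T]; field_simp
      have h2 : l * R₀ * μ ≤ (2 * c₁ + P.δ) * μ := mul_le_mul_of_nonneg_right hlR hμ0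
      have h3 : T * P.δ ≤ R₀ * P.δ := mul_le_mul_of_nonneg_right hR₀T.le hδ.le
      have h4 : R₀ * (l * μ) ≤ R₀ * (P.δ / 2) := by nlinarith
      exact le_of_mul_le_mul_left h4 hR₀0
    have hnegH : (negP M).PosSemidef := cfc_posSemidef (fun t => le_max_right _ _) M
    have hposH : (posP M).PosSemidef := cfc_posSemidef (fun t => le_max_right _ _) M
    have hdec := shoot_posP_sub_negP hM
    have hsm : ((P.δ / 2 : ℝ) • (1 : Matrix (Fin P.N) (Fin P.N) ℂ) - l • negP M).PosSemidef := by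
      refine posSemidef_sub_of_norm_le (shoot_smul_psd hnegH hl.le).1 ?_
      rw [norm_smul, Real.norm_of_nonneg hl.le]
      exact (mul_le_mul_of_nonneg_left hneg hl.le).trans hlμ
    have hfree := hT.free (by
      have h1 : F M P.b = l • (posP M - negP M) - P.R M := by
        rw [hdec]
        exact eq_sub_of_add_eq hΓ
      have e : (P.c0 M + P.δ / 2 : ℝ) • (1 : Matrix (Fin P.N) (Fin P.N) ℂ) + F M P.b =
          ((P.c0 M : ℝ) • (1 : Matrix (Fin P.N) (Fin P.N) ℂ) - P.R M) +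
            ((P.δ / 2 : ℝ) • (1 : Matrix (Fin P.N) (Fin P.N) ℂ) - l • negP M) + l • posP M := by
        rw [h1, add_smul, smul_sub]; abel
      rw [e]
      exact (hcR.add hsm).add (shoot_smul_psd hposH hl.le))
    have h5 := hR₁ M (F M) hM hT.herm hfree
    have h6 := norm_le_trace hposH
    have h7 : ‖M‖ ≤ ‖posP M‖ + ‖negP M‖ := by
      conv_lhs => rw [← hdec]
      exact norm_sub_le _ _
    linarith

end Crest.Agent.R332
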